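import Vale.Agent.P060.SparseComplement

/-!
Hadwiger inequality for graphs with independence number at most two whose complement has maximum
degree `D` with `D ^ 3` small compared to the square of its matching number.
-/

namespace Vale.Agent.P060.AlphaTwo

open Finset

variable {V : Type*}

theorem colorable_of_pairs [Fintype V] [DecidableEq V] (G : SimpleGraph V) {M : Finset (V × V)}
    (hM : IsPairs Gᶜ.Adj M) :
    G.Colorable (((univ : Finset V) \ ends M).card + M.card) := by
  classical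
  obtain ⟨U, hU⟩ : ∃ U : Finset V, U = univ \ ends M := ⟨_, rfl⟩
  rw [← hU]
  have hUmem : ∀ v, v ∈ U ↔ v ∉ ends M := fun v => by simp [hU]
  have hex : ∀ v, v ∉ U → ∃ e : ↥M, v = e.1.1 ∨ v = e.1.2 := by
    intro v hv
    obtain ⟨e, he, h⟩ := mem_ends.1 (not_not.1 fun q => hv ((hUmem v).2 q))
    exact ⟨⟨e, he⟩, h⟩
  choose g hg using hex
  let f : V → ↥U ⊕ ↥M := fun v => if h : v ∈ U then Sum.inl ⟨v, h⟩ else Sum.inr (g v h)
  refine SimpleGraph.Colorable.mono (le_of_eq (by simp : Fintype.card (↥U ⊕ ↥M) = U.card + M.card))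
    (SimpleGraph.Coloring.colorable (SimpleGraph.Coloring.mk f fun {v w} hvw heq => ?_))
  simp only [f] at heq
  by_cases hv : v ∈ U <;> by_cases hw : w ∈ U
  · rw [dif_pos hv, dif_pos hw] at heq
    exact hvw.ne (Subtype.ext_iff.1 (Sum.inl.inj heq))
  · rw [dif_pos hv, dif_neg hw] at heq
    exact Sum.inl_ne_inr heq
  · rw [dif_neg hv, dif_pos hw] at heq
    exact Sum.inr_ne_inl heq
  · rw [dif_neg hv, dif_neg hw] at heq
    have he := Sum.inr.inj heq
    have h1 := hg v hv
    have h2 := hg w hw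
    rw [he] at h1
    have hnot := ((SimpleGraph.compl_adj G _ _).1 (hM.1 _ (g w hw).2)).2
    rcases h1 with q1 | q1 <;> rcases h2 with q2 | q2
    · exact hvw.ne (q1.trans q2.symm)
    · exact hnot (q1 ▸ q2 ▸ hvw)
    · exact hnot (q1 ▸ q2 ▸ hvw).symm
    · exact hvw.ne (q1.trans q2.symm)

/-- Singletons outside the pairs and the pairs themselves as branch sets. -/
theorem minor_of_branch [Fintype V] (G : SimpleGraph V) {U : Finset V} {n : ℕ} (a b : Fin n → V)
    (ha : Function.Injective a) (hb : Function.Injective b) (hab : ∀ i j, a i ≠ b j)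
    (haU : ∀ i, a i ∉ U) (hbU : ∀ i, b i ∉ U)
    (hUU : ∀ u ∈ U, ∀ w ∈ U, u ≠ w → G.Adj u w) (hadj : ∀ i, G.Adj (a i) (b i))
    (hUb : ∀ u ∈ U, ∀ i, G.Adj u (b i))
    (hduo : ∀ i j, i ≠ j →
      G.Adj (a i) (a j) ∨ G.Adj (a i) (b j) ∨ G.Adj (b i) (a j) ∨ G.Adj (b i) (b j))
    {t : ℕ} (ht : t ≤ U.card + n) : HasMinor G t := by
  classical
  let B : ↥U ⊕ Fin n → Set V := Sum.elim (fun u => {u.1}) (fun i => {a i, b i})
  have hconn : ∀ x, (G.induce (B x)).Connected := by
    rintro (u | i)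
    · refine SimpleGraph.connected_iff _ |>.2 ⟨fun x y => ?_, ⟨⟨u.1, rfl⟩⟩⟩
      have hxy : x = y := Subtype.ext ((Set.mem_singleton_iff.1 x.2).trans
        (Set.mem_singleton_iff.1 y.2).symm)
      rw [hxy]
    · exact SimpleGraph.induce_pair_connected_of_adj (hadj i)
  have ue : ∀ u : ↥U, ∀ i, u.1 ≠ a i ∧ u.1 ≠ b i :=
    fun u i => ⟨fun q => haU i (q ▸ u.2), fun q => hbU i (q ▸ u.2)⟩
  have hpair : ∀ x y, x ≠ y → Disjoint (B x) (B y) ∧ ∃ p ∈ B x, ∃ q ∈ B y, G.Adj p q := by
    rintro (u | i) (w | j) hxy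
    · have huw : u.1 ≠ w.1 := fun q => hxy (congrArg Sum.inl (Subtype.ext q))
      exact ⟨by simpa [B] using huw, u.1, rfl, w.1, rfl, hUU _ u.2 _ w.2 huw⟩
    · exact ⟨by simpa [B] using ue u j, u.1, rfl, b j, by simp [B], hUb _ u.2 j⟩
    · exact ⟨by simpa [B] using ⟨(ue w i).1, (ue w i).2⟩, b i, by simp [B], w.1, rfl,
        (hUb _ w.2 i).symm⟩
    · have hij : i ≠ j := fun q => hxy (congrArg Sum.inr q)
      refine ⟨?_, ?_⟩
      · simp only [B, Sum.elim_inr, Set.disjoint_left, Set.mem_insert_iff, Set.mem_singleton_iff]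
        rintro v (rfl | rfl) (q | q)
        · exact hij (ha q)
        · exact hab i j q
        · exact hab j i q.symm
        · exact hij (hb q)
      · rcases hduo i j hij with h | h | h | h
        exacts [⟨a i, by simp [B], a j, by simp [B], h⟩, ⟨a i, by simp [B], b j, by simp [B], h⟩,
          ⟨b i, by simp [B], a j, by simp [B], h⟩, ⟨b i, by simp [B], b j, by simp [B], h⟩]
  have hcard : t ≤ Fintype.card (↥U ⊕ Fin n) := by simpa using ht
  let em : Fin t → ↥U ⊕ Fin n := fun i => (Fintype.equivFin _).symm (Fin.castLE hcard i)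
  refine ⟨fun i => B (em i), fun i => hconn _, fun i j hij => hpair _ _ fun q => hij ?_⟩
  exact Fin.castLE_injective hcard ((Fintype.equivFin _).symm.injective q)

/-- In a bounded-degree relation, a permutation pairing with no two mutually complete pairs. -/
theorem exists_perm [Fintype V] [DecidableEq V] (H : SimpleGraph V) [DecidableRel H.Adj]
    {n D T : ℕ} (a b : Fin n → V) (ha : Function.Injective a) (hb : Function.Injective b)
    (hD : ∀ v, (H.neighborFinset v).card ≤ D)
    (hbig : 2 * ((D + D * D / (T + 1)) + D * T) < n) :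
    ∃ σ : Equiv.Perm (Fin n), (∀ i, ¬ H.Adj (a i) (b (σ i))) ∧
      ∀ i j, i ≠ j → ¬ (H.Adj (a i) (a j) ∧ H.Adj (a i) (b (σ j)) ∧
        H.Adj (b (σ i)) (a j) ∧ H.Adj (b (σ i)) (b (σ j))) := by
  classical
  set N : V → Finset V := fun v => H.neighborFinset v with hNdef
  have hN : ∀ {v w}, w ∈ N v ↔ H.Adj v w := fun {v w} => H.mem_neighborFinset v w
  let Ok : V → V → Prop := fun x y => ¬ H.Adj x y ∧ (N x ∩ N y).card ≤ T
  -- partners excluded for a vertex
  let F0 : V → Finset V := fun x => univ.filter fun y => ¬ Ok x y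
  have hF0 : ∀ x, (F0 x).card ≤ D + D * D / (T + 1) := by
    intro x
    have hsub : F0 x ⊆ N x ∪ univ.filter fun y => T + 1 ≤ (N x ∩ N y).card := by
      intro y hy
      simp only [F0, Ok, mem_filter, mem_univ, true_and, not_and_or, not_not, not_le] at hy
      rcases hy with h | h
      · exact mem_union_left _ (hN.2 h)
      · exact mem_union_right _ (mem_filter.2 ⟨mem_univ _, h⟩)
    refine (card_le_card hsub).trans ((card_union_le _ _).trans (add_le_add (hD x) ?_))
    set Y := univ.filter fun y => T + 1 ≤ (N x ∩ N y).card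
    rw [Nat.le_div_iff_mul_le (Nat.succ_pos T)]
    calc Y.card * (T + 1) = ∑ _y ∈ Y, (T + 1) := by rw [sum_const, smul_eq_mul]
      _ ≤ ∑ y ∈ Y, ((N x).filter fun z => y ∈ N z).card := sum_le_sum fun y hy => by
          refine (mem_filter.1 hy).2.trans (card_le_card fun z hz => ?_)
          rw [mem_inter] at hz
          exact mem_filter.2 ⟨hz.1, hN.2 (hN.1 hz.2).symm⟩
      _ ≤ ∑ y : V, ((N x).filter fun z => y ∈ N z).card :=
          sum_le_sum_of_subset (subset_univ _)
      _ = ∑ z ∈ N x, (N z).card := by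
          simp only [card_filter]
          rw [sum_comm]
          exact sum_congr rfl fun z _ => by simp
      _ ≤ ∑ _z ∈ N x, D := sum_le_sum fun z _ => hD z
      _ ≤ D * D := by
          rw [sum_const, smul_eq_mul]
          exact Nat.mul_le_mul_right _ (hD x)
  -- indices excluded as exchange partners
  have hidx : ∀ (g : Fin n → V), Function.Injective g → ∀ F : Finset V,
      (univ.filter fun j => g j ∈ F).card ≤ F.card := fun g hg F =>
    card_le_card_of_injOn g (fun j hj => (mem_filter.1 (mem_coe.1 hj)).2) hg.injOn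
  -- a permutation with all pairs acceptable
  let Bad0 : Equiv.Perm (Fin n) → Finset (Fin n) := fun σ => univ.filter fun i => ¬ Ok (a i) (b (σ i))
  obtain ⟨σ0, -, hmin0⟩ := exists_min_image (univ : Finset (Equiv.Perm (Fin n)))
    (fun σ => (Bad0 σ).card) univ_nonempty
  have hσ0 : ∀ i, Ok (a i) (b (σ0 i)) := by
    by_contra hcon
    push Not at hcon
    obtain ⟨i, hi⟩ := hcon
    obtain ⟨j, -, hj⟩ : ∃ j, j ∈ (univ : Finset (Fin n)) ∧
        b (σ0 j) ∉ F0 (a i) ∧ a j ∉ F0 (b (σ0 i)) := by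
      by_contra hc
      push Not at hc
      have h1 : (univ : Finset (Fin n)).card ≤ ((univ.filter fun j => b (σ0 j) ∈ F0 (a i)) ∪
          univ.filter fun j => a j ∈ F0 (b (σ0 i))).card := card_le_card fun j _ => by
        by_cases h : b (σ0 j) ∈ F0 (a i)
        · exact mem_union_left _ (mem_filter.2 ⟨mem_univ _, h⟩)
        · exact mem_union_right _ (mem_filter.2 ⟨mem_univ _, hc j (mem_univ _) h⟩)
      have := card_union_le (univ.filter fun j => b (σ0 j) ∈ F0 (a i))
        (univ.filter fun j => a j ∈ F0 (b (σ0 i)))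
      have := hidx (fun j => b (σ0 j)) (hb.comp σ0.injective) (F0 (a i))
      have := hidx a ha (F0 (b (σ0 i)))
      have := hF0 (a i)
      have := hF0 (b (σ0 i))
      simp only [card_univ, Fintype.card_fin] at h1
      omega
    simp only [F0, Ok, mem_filter, mem_univ, true_and, not_not] at hj
    have hsub : Bad0 (σ0 * Equiv.swap i j) ⊆ (Bad0 σ0).erase i := by
      intro l hl
      replace hl : ¬ Ok (a l) (b ((σ0 * Equiv.swap i j) l)) := (mem_filter.1 hl).2
      rw [Equiv.Perm.mul_apply] at hl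
      by_cases hli : l = i
      · subst hli
        rw [Equiv.swap_apply_left] at hl
        exact absurd hj.1 hl
      by_cases hlj : l = j
      · subst hlj
        rw [Equiv.swap_apply_right] at hl
        exact absurd ⟨fun h => hj.2.1 h.symm, inter_comm (N (b (σ0 i))) (N (a l)) ▸ hj.2.2⟩ hl
      rw [Equiv.swap_apply_of_ne_of_ne hli hlj] at hl
      exact mem_erase.2 ⟨hli, mem_filter.2 ⟨mem_univ _, hl⟩⟩
    have h1 := card_le_card hsub
    have h2 := card_erase_add_one (show i ∈ Bad0 σ0 from mem_filter.2 ⟨mem_univ _, hi⟩)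
    have := hmin0 (σ0 * Equiv.swap i j) (mem_univ _)
    omega
  -- now remove the complete pairs of pairs
  let K : V → V → V → V → Prop := fun x y z w => H.Adj x z ∧ H.Adj x w ∧ H.Adj y z ∧ H.Adj y w
  let Duo : Equiv.Perm (Fin n) → Finset (Fin n × Fin n) := fun σ => univ.filter fun p =>
    p.1 ≠ p.2 ∧ K (a p.1) (b (σ p.1)) (a p.2) (b (σ p.2))
  obtain ⟨σ, hσ, hmin⟩ := exists_min_image
    ((univ : Finset (Equiv.Perm (Fin n))).filter fun σ => ∀ i, Ok (a i) (b (σ i)))
    (fun σ => (Duo σ).card) ⟨σ0, mem_filter.2 ⟨mem_univ _, hσ0⟩⟩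
  simp only [mem_filter, mem_univ, true_and] at hσ hmin
  refine ⟨σ, fun i => (hσ i).1, fun i k hik hK => ?_⟩
  -- vertices completing a complete pair of pairs with `x`
  let F : V → Finset V := fun x => F0 x ∪ (univ.filter fun l => a l ∈ N x ∧ b (σ l) ∈ N x).biUnion
    fun l => N (a l) ∩ N (b (σ l))
  have hF : ∀ x, (F x).card ≤ D + D * D / (T + 1) + D * T := by
    intro x
    refine (card_union_le _ _).trans (add_le_add (hF0 x) ?_)
    refine (card_biUnion_le_card_mul _ _ T fun l _ => (hσ l).2).trans (Nat.mul_le_mul_right _ ?_)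
    refine (card_le_card fun l hl => ?_).trans ((hidx a ha (N x)).trans (hD x))
    rw [mem_filter] at hl ⊢
    exact ⟨hl.1, hl.2.1⟩
  obtain ⟨j, hj1, hj2⟩ : ∃ j, b (σ j) ∉ F (a i) ∧ a j ∉ F (b (σ i)) := by
    by_contra hc
    push Not at hc
    have h1 : (univ : Finset (Fin n)).card ≤ ((univ.filter fun j => b (σ j) ∈ F (a i)) ∪
        univ.filter fun j => a j ∈ F (b (σ i))).card := card_le_card fun j _ => by
      by_cases h : b (σ j) ∈ F (a i)
      · exact mem_union_left _ (mem_filter.2 ⟨mem_univ _, h⟩)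
      · exact mem_union_right _ (mem_filter.2 ⟨mem_univ _, hc j h⟩)
    have := card_union_le (univ.filter fun j => b (σ j) ∈ F (a i))
      (univ.filter fun j => a j ∈ F (b (σ i)))
    have := hidx (fun j => b (σ j)) (hb.comp σ.injective) (F (a i))
    have := hidx a ha (F (b (σ i)))
    have := hF (a i)
    have := hF (b (σ i))
    simp only [card_univ, Fintype.card_fin] at h1
    omega
  simp only [F, mem_union, not_or, mem_biUnion, mem_filter, mem_univ, true_and, mem_inter, hN,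
    not_exists, not_and] at hj1 hj2
  obtain ⟨hj1o, hj1K⟩ := hj1
  obtain ⟨hj2o, hj2K⟩ := hj2
  simp only [F0, Ok, mem_filter, mem_univ, true_and, not_not] at hj1o hj2o
  have hji : j ≠ i := fun h => by
    subst h
    exact hj1K k ⟨hK.1, hK.2.1⟩ hK.2.2.1.symm hK.2.2.2.symm
  set τ := σ * Equiv.swap i j
  have hτi : τ i = σ j := by simp [τ]
  have hτj : τ j = σ i := by simp [τ]
  have hτl : ∀ l, l ≠ i → l ≠ j → τ l = σ l := fun l h1 h2 => by
    simp [τ, Equiv.swap_apply_of_ne_of_ne h1 h2]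
  have hτok : ∀ l, Ok (a l) (b (τ l)) := fun l => by
    by_cases hli : l = i
    · subst hli; rw [hτi]; exact hj1o
    by_cases hlj : l = j
    · subst hlj; rw [hτj]
      exact ⟨fun h => hj2o.1 h.symm, inter_comm (N (b (σ i))) (N (a l)) ▸ hj2o.2⟩
    rw [hτl l hli hlj]; exact hσ l
  -- the new pairs are in no complete pair of pairs
  have hnone : ∀ l, l ≠ i → ¬ K (a i) (b (τ i)) (a l) (b (τ l)) := by
    intro l hli h
    rw [hτi] at h
    by_cases hlj : l = j
    · subst hlj; rw [hτj] at h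
      exact (hσ i).1 h.2.1
    rw [hτl l hli hlj] at h
    exact hj1K l ⟨h.1, h.2.1⟩ h.2.2.1.symm h.2.2.2.symm
  have hnone' : ∀ l, l ≠ j → ¬ K (a j) (b (τ j)) (a l) (b (τ l)) := by
    intro l hlj h
    rw [hτj] at h
    by_cases hli : l = i
    · subst hli; rw [hτi] at h
      exact (hσ l).1 h.2.2.1.symm
    rw [hτl l hli hlj] at h
    exact hj2K l ⟨h.2.2.1, h.2.2.2⟩ h.1.symm h.2.1.symm
  have hKsymm : ∀ x y z w, K x y z w → K z w x y := fun x y z w h =>
    ⟨h.1.symm, h.2.2.1.symm, h.2.1.symm, h.2.2.2.symm⟩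
  have hsub : Duo τ ⊆ (Duo σ).erase (i, k) := by
    rintro ⟨p, q⟩ hpq
    simp only [Duo, mem_filter, mem_univ, true_and] at hpq
    obtain ⟨hne, h⟩ := hpq
    have hp : p ≠ i ∧ p ≠ j :=
      ⟨fun e => hnone q (e ▸ hne.symm) (e ▸ h), fun e => hnone' q (e ▸ hne.symm) (e ▸ h)⟩
    have hq : q ≠ i ∧ q ≠ j :=
      ⟨fun e => hnone p (e ▸ hne) (e ▸ hKsymm _ _ _ _ h),
        fun e => hnone' p (e ▸ hne) (e ▸ hKsymm _ _ _ _ h)⟩
    refine mem_erase.2 ⟨fun e => hp.1 (congrArg Prod.fst e), mem_filter.2 ⟨mem_univ _, hne, ?_⟩⟩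
    rw [hτl p hp.1 hp.2, hτl q hq.1 hq.2] at h
    exact h
  have h1 := card_le_card hsub
  have h2 := card_erase_add_one (show (i, k) ∈ Duo σ from mem_filter.2 ⟨mem_univ _, hik, hK⟩)
  have := hmin τ hτok
  omega

/-- The main theorem. -/
theorem colorable_of_alpha_two [Fintype V] (G : SimpleGraph V) (D : ℕ)
    (hD : ∀ v, (Gᶜ.neighborSet v).ncard ≤ D) (hα : G.indepNum ≤ 2)
    (hbig : ∃ M, IsPairs Gᶜ.Adj M ∧ 64 * D ^ 3 < M.card ^ 2)
    (k : ℕ) (hk : ¬ HasMinor G (k + 1)) : G.Colorable k := by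
  classical
  have htri : ∀ x y z, Gᶜ.Adj x y → Gᶜ.Adj x z → ¬ Gᶜ.Adj y z := by
    intro x y z h1 h2 h3
    rw [SimpleGraph.compl_adj] at h1 h2 h3
    have hind : G.IsIndepSet ↑({x, y, z} : Finset V) := by
      intro p hp q hq hpq
      simp only [coe_insert, coe_singleton, Set.mem_insert_iff, Set.mem_singleton_iff] at hp hq
      rcases hp with rfl | rfl | rfl <;> rcases hq with rfl | rfl | rfl <;>
        first
          | exact absurd rfl hpq
          | exact h1.2
          | exact h2.2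
          | exact h3.2
          | exact fun h => h1.2 h.symm
          | exact fun h => h2.2 h.symm
          | exact fun h => h3.2 h.symm
    have := hind.card_le_indepNum
    have hc : ({x, y, z} : Finset V).card = 3 := by
      rw [card_insert_of_notMem (by simp [h1.1, h2.1]), card_pair h3.1]
    omega
  have hirr : ∀ a, ¬ Gᶜ.Adj a a := fun a => Gᶜ.irrefl
  have hne : ((univ : Finset (V × V)).powerset.filter fun M => IsPairs Gᶜ.Adj M).Nonempty :=
    ⟨∅, by simp [IsPairs]⟩
  obtain ⟨M, hM, hmax⟩ := exists_max_image _ Finset.card hne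
  simp only [mem_filter, mem_powerset, subset_univ, true_and] at hM hmax
  obtain ⟨M', hM', hbig⟩ := hbig
  have hn : 64 * D ^ 3 < M.card ^ 2 :=
    hbig.trans_le (Nat.pow_le_pow_left (hmax M' hM') 2)
  set U : Finset V := univ \ ends M with hUdef
  have hUmem : ∀ v, v ∈ U ↔ v ∉ ends M := fun v => by simp [hUdef]
  have hout : ∀ u w, u ∈ U → w ∈ U → ¬ Gᶜ.Adj u w := by
    intro u w hu hw hadj
    have i1 := hM.insert_pair hadj ((hUmem u).1 hu) ((hUmem w).1 hw)
    have := hmax _ i1.1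
    omega
  -- each pair has an end without neighbours outside
  have hone : ∀ e ∈ M, ∀ u w, u ∈ U → w ∈ U → Gᶜ.Adj e.1 u → ¬ Gᶜ.Adj e.2 w := by
    intro e he u w hu hw h1 h2
    have hne : u ≠ w := by
      rintro rfl
      exact htri e.1 e.2 u (hM.1 e he) h1 h2
    have hQ : IsPairs Gᶜ.Adj (M.erase e) := ⟨fun f hf => hM.1 f (mem_of_mem_erase hf),
      fun f hf g hg => hM.2 f (mem_of_mem_erase hf) g (mem_of_mem_erase hg)⟩
    have hnot : ∀ v, (v = e.1 ∨ v = e.2 ∨ v ∈ U) → v ∉ ends (M.erase e) := by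
      intro v hv hvQ
      obtain ⟨f, hf, hvf⟩ := mem_ends.1 hvQ
      obtain ⟨hfe, hfM⟩ := mem_erase.1 hf
      obtain ⟨q1, q2, q3, q4⟩ := hM.2 e he f hfM (Ne.symm hfe)
      rcases hv with rfl | rfl | hv
      · rcases hvf with q | q <;> contradiction
      · rcases hvf with q | q <;> contradiction
      · exact (hUmem v).1 hv (mem_ends.2 ⟨f, hfM, hvf⟩)
    have i1 := hQ.insert_pair h1 (hnot _ (Or.inl rfl)) (hnot _ (Or.inr (Or.inr hu)))
    have hx : ∀ v, (v = e.2 ∨ v = w) → v ∉ ends (insert (e.1, u) (M.erase e)) := by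
      intro v hv hvQ
      obtain ⟨f, hf, hvf⟩ := mem_ends.1 hvQ
      rcases mem_insert.1 hf with rfl | hf
      · rcases hv with rfl | rfl <;> rcases hvf with q | q
        · exact (hM.1 e he).ne q.symm
        · exact (hUmem u).1 hu (mem_ends.2 ⟨e, he, Or.inr q.symm⟩)
        · exact (hUmem _).1 hw (mem_ends.2 ⟨e, he, Or.inl q⟩)
        · exact hne q.symm
      · rcases hv with rfl | rfl
        · exact hnot _ (Or.inr (Or.inl rfl)) (mem_ends.2 ⟨f, hf, hvf⟩)
        · exact hnot _ (Or.inr (Or.inr hw)) (mem_ends.2 ⟨f, hf, hvf⟩)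
    have i2 := i1.1.insert_pair h2 (hx _ (Or.inl rfl)) (hx _ (Or.inr rfl))
    have := hmax _ i2.1
    have := card_erase_add_one he
    omega
  -- orient the pairs
  set n := M.card
  let en : Fin n ≃ ↥M := M.equivFin.symm
  have hor : ∀ i, ∃ p : V × V, (p = (en i).1 ∨ p = (en i).1.swap) ∧
      ∀ u ∈ U, ¬ Gᶜ.Adj p.2 u := by
    intro i
    by_cases h : ∃ w ∈ U, Gᶜ.Adj (en i).1.2 w
    · obtain ⟨w, hw, hadj⟩ := h
      refine ⟨_, Or.inr rfl, fun u hu h1 => hone _ (en i).2 u w hu hw h1 hadj⟩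
    · push Not at h
      exact ⟨_, Or.inl rfl, h⟩
  choose p hp hpU using hor
  set a : Fin n → V := fun i => (p i).1
  set b : Fin n → V := fun i => (p i).2
  have hmemab : ∀ i v, (v = a i ∨ v = b i) → v = (en i).1.1 ∨ v = (en i).1.2 := by
    intro i v hv
    rcases hp i with h | h <;> simp only [a, b, h, Prod.fst_swap, Prod.snd_swap] at hv <;> tauto
  have hadjab : ∀ i, Gᶜ.Adj (a i) (b i) := fun i => by
    rcases hp i with h | h <;> simp only [a, b, h, Prod.fst_swap, Prod.snd_swap]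
    exacts [hM.1 _ (en i).2, (hM.1 _ (en i).2).symm]
  have hsame : ∀ i j v, (v = a i ∨ v = b i) → (v = a j ∨ v = b j) → i = j := by
    intro i j v hi hj
    by_contra hij
    have hne : (en i).1 ≠ (en j).1 := fun h => hij (en.injective (Subtype.ext h))
    obtain ⟨q1, q2, q3, q4⟩ := hM.2 _ (en i).2 _ (en j).2 hne
    rcases hmemab i v hi with rfl | rfl <;> rcases hmemab j _ hj with q | q <;> contradiction
  have ha : Function.Injective a := fun i j h => hsame i j (a i) (Or.inl rfl) (Or.inl h)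
  have hb : Function.Injective b := fun i j h => hsame i j (b i) (Or.inr rfl) (Or.inr h)
  have hab : ∀ i j, a i ≠ b j := by
    intro i j h
    obtain rfl := hsame i j (a i) (Or.inl rfl) (Or.inr h)
    exact (hadjab i).ne h
  have hoff : ∀ i v, (v = a i ∨ v = b i) → v ∉ U := fun i v hv h =>
    (hUmem v).1 h (mem_ends.2 ⟨_, (en i).2, hmemab i v hv⟩)
  -- the parameters
  set T := Nat.sqrt D
  have hD' : ∀ v, (Gᶜ.neighborFinset v).card ≤ D := fun v => by
    rw [← Set.ncard_coe_finset, SimpleGraph.coe_neighborFinset]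
    exact hD v
  have hsmall : 2 * (D + D * D / (T + 1) + D * T) < n := by
    have h1 : D < (T + 1) ^ 2 := Nat.lt_succ_sqrt' D
    have h2 : T ^ 2 ≤ D := Nat.sqrt_le' D
    have h5 : D ≤ (T + 1) * (T + 1) := by nlinarith
    have h3 : D * D / (T + 1) ≤ D * (T + 1) := Nat.div_le_of_le_mul (by nlinarith [Nat.mul_le_mul_left D h5])
    have h4 : (2 * (2 * D + 2 * (D * T))) ^ 2 ≤ 64 * D ^ 3 := by
      have hTD : T ≤ D := Nat.sqrt_le_self D
      rcases Nat.eq_zero_or_pos D with h0 | h0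
      · simp [h0]
      have h6 : T + 1 ≤ 2 * T := by
        have : 1 ≤ T := Nat.sqrt_pos.2 h0
        omega
      have h7 : (T + 1) ^ 2 ≤ 4 * D := by nlinarith
      calc (2 * (2 * D + 2 * (D * T))) ^ 2 = 16 * D ^ 2 * (T + 1) ^ 2 := by ring
        _ ≤ 16 * D ^ 2 * (4 * D) := by gcongr
        _ = 64 * D ^ 3 := by ring
    have h8 : 2 * (2 * D + 2 * (D * T)) < n :=
      lt_of_pow_lt_pow_left₀ 2 (Nat.zero_le _) (h4.trans_lt hn)
    nlinarith
  obtain ⟨σ, hσ1, hσ2⟩ := exists_perm Gᶜ a b ha hb hD' hsmall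
  have hadjG : ∀ {x y}, x ≠ y → ¬ Gᶜ.Adj x y → G.Adj x y := fun {x y} hxy h => by
    by_contra hc
    exact h ((SimpleGraph.compl_adj G x y).2 ⟨hxy, hc⟩)
  by_cases hle : U.card + n ≤ k
  · exact (colorable_of_pairs G hM).mono hle
  refine absurd ?_ hk
  refine minor_of_branch G (U := U) a (fun i => b (σ i)) ha (hb.comp σ.injective)
    (fun i j => hab i _) (fun i => hoff i _ (Or.inl rfl)) (fun i => hoff _ _ (Or.inr rfl))
    (fun u hu w hw huw => hadjG huw (hout u w hu hw))
    (fun i => hadjG (hab i _) (hσ1 i))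
    (fun u hu i => (hadjG (fun e => hoff _ _ (Or.inr rfl) (e ▸ hu)) (hpU (σ i) u hu)).symm)
    (fun i j hij => ?_) (by omega)
  by_contra hc
  push Not at hc
  exact hσ2 i j hij ⟨(SimpleGraph.compl_adj G _ _).2 ⟨ha.ne hij, hc.1⟩,
    (SimpleGraph.compl_adj G _ _).2 ⟨hab i _, hc.2.1⟩,
    (SimpleGraph.compl_adj G _ _).2 ⟨(hab j _).symm, hc.2.2.1⟩,
    (SimpleGraph.compl_adj G _ _).2 ⟨(hb.comp σ.injective).ne hij, hc.2.2.2⟩⟩

end Vale.Agent.P060.AlphaTwo
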