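import Mathlib

/-!
Hadwiger inequality for graphs whose complement has small maximum degree compared to its
matching number.
-/

namespace Vale.Agent.P060

open Finset

variable {V : Type*}

/-- A complete minor on `t` branch sets: pairwise disjoint sets inducing connected (in particular
nonempty) subgraphs, with an edge between any two of them. -/
def HasMinor (G : SimpleGraph V) (t : ℕ) : Prop :=
  ∃ B : Fin t → Set V, (∀ i, (G.induce (B i)).Connected) ∧
    ∀ i j, i ≠ j → Disjoint (B i) (B j) ∧ ∃ x ∈ B i, ∃ y ∈ B j, G.Adj x y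

/-- A set of pairwise disjoint ordered pairs, each related by `R`. -/
def IsPairs (R : V → V → Prop) (M : Finset (V × V)) : Prop :=
  (∀ e ∈ M, R e.1 e.2) ∧
    ∀ e ∈ M, ∀ f ∈ M, e ≠ f → e.1 ≠ f.1 ∧ e.1 ≠ f.2 ∧ e.2 ≠ f.1 ∧ e.2 ≠ f.2

/-- The endpoints of a set of pairs. -/
def ends [DecidableEq V] (M : Finset (V × V)) : Finset V :=
  M.biUnion fun e => {e.1, e.2}

theorem mem_ends [DecidableEq V] {M : Finset (V × V)} {v : V} :
    v ∈ ends M ↔ ∃ e ∈ M, v = e.1 ∨ v = e.2 := by
  simp [ends]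

theorem IsPairs.insert_pair [DecidableEq V] {R : V → V → Prop} {M : Finset (V × V)}
    (h : IsPairs R M) {a c : V} (hac : R a c) (ha : a ∉ ends M) (hc : c ∉ ends M) :
    IsPairs R (insert (a, c) M) ∧ (insert (a, c) M).card = M.card + 1 := by
  have ha' : ∀ e ∈ M, a ≠ e.1 ∧ a ≠ e.2 := fun e he =>
    ⟨fun q => ha (mem_ends.2 ⟨e, he, Or.inl q⟩), fun q => ha (mem_ends.2 ⟨e, he, Or.inr q⟩)⟩
  have hc' : ∀ e ∈ M, c ≠ e.1 ∧ c ≠ e.2 := fun e he =>
    ⟨fun q => hc (mem_ends.2 ⟨e, he, Or.inl q⟩), fun q => hc (mem_ends.2 ⟨e, he, Or.inr q⟩)⟩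
  refine ⟨⟨?_, ?_⟩, card_insert_of_notMem fun hm => (ha' _ hm).1 rfl⟩
  · intro e he
    rcases mem_insert.1 he with rfl | he
    · exact hac
    · exact h.1 e he
  · intro e he f hf hne
    rcases mem_insert.1 he with rfl | he <;> rcases mem_insert.1 hf with rfl | hf
    · exact absurd rfl hne
    · exact ⟨(ha' f hf).1, (ha' f hf).2, (hc' f hf).1, (hc' f hf).2⟩
    · exact ⟨(ha' e he).1.symm, (hc' e he).1.symm, (ha' e he).2.symm, (hc' e he).2.symm⟩
    · exact h.2 e he f hf hne

theorem card_ends [DecidableEq V] {R : V → V → Prop} {M : Finset (V × V)} (h : IsPairs R M)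
    (hirr : ∀ a, ¬ R a a) : (ends M).card = 2 * M.card := by
  rw [ends, card_biUnion]
  · rw [sum_congr rfl (fun e he => card_pair (fun q => hirr e.2 (by
      have := h.1 e he
      rwa [q] at this)))]
    rw [sum_const, smul_eq_mul, mul_comm]
  · intro e he f hf hne
    obtain ⟨h1, h2, h3, h4⟩ := h.2 e he f hf hne
    simp only [Function.onFun, disjoint_left, mem_insert, mem_singleton]
    rintro v (rfl | rfl) (q | q) <;> contradiction

/-- A Dirac-type criterion for a perfect pairing. -/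
theorem exists_pairs [DecidableEq V] [Fintype V] (R : V → V → Prop) [DecidableRel R]
    (hsym : ∀ a b, R a b → R b a) (hirr : ∀ a, ¬ R a a) (S : Finset V) (n : ℕ)
    (hS : S.card = 2 * n) (hdeg : ∀ a ∈ S, n ≤ (S.filter (R a)).card) :
    ∃ P, IsPairs R P ∧ ends P = S ∧ P.card = n := by
  classical
  have hne : ((univ : Finset (V × V)).powerset.filter
      fun P => IsPairs R P ∧ ends P ⊆ S).Nonempty :=
    ⟨∅, by simp [IsPairs, ends]⟩
  obtain ⟨P, hP, hmax⟩ := exists_max_image _ Finset.card hne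
  simp only [mem_filter, mem_powerset, subset_univ, true_and] at hP hmax
  obtain ⟨hP, hPS⟩ := hP
  have hcard := card_ends hP hirr
  have hle : P.card ≤ n := by have := card_le_card hPS; omega
  rcases hle.eq_or_lt with heq | hlt
  · exact ⟨P, hP, eq_of_subset_of_card_le hPS (by omega), heq⟩
  exfalso
  have h2 : 1 < (S \ ends P).card := by
    rw [card_sdiff_of_subset hPS]; omega
  obtain ⟨a, ha, b, hb, hab⟩ := one_lt_card.1 h2
  rw [mem_sdiff] at ha hb
  have key : ∀ a ∈ S, a ∉ ends P → (S.filter (R a)).card ≤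
      ∑ e ∈ P, ((if R a e.1 then 1 else 0) + if R a e.2 then 1 else 0) := by
    intro a haS haP
    have hsub : S.filter (R a) ⊆ P.biUnion fun e => ({e.1, e.2} : Finset V).filter (R a) := by
      intro c hc
      rw [mem_filter] at hc
      by_cases hcP : c ∈ ends P
      · obtain ⟨e, he, hce⟩ := mem_ends.1 hcP
        exact mem_biUnion.2 ⟨e, he, mem_filter.2 ⟨by simpa using hce, hc.2⟩⟩
      · have hi := hP.insert_pair hc.2 haP hcP
        have := hmax _ ⟨hi.1, ?_⟩
        · omega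
        · intro v hv
          obtain ⟨e, he, hve⟩ := mem_ends.1 hv
          rcases mem_insert.1 he with rfl | he
          · rcases hve with rfl | rfl
            · exact haS
            · exact hc.1
          · exact hPS (mem_ends.2 ⟨e, he, hve⟩)
    refine (card_le_card hsub).trans (card_biUnion_le.trans (sum_le_sum fun e _ => ?_))
    by_cases hq1 : R a e.1 <;> by_cases hq2 : R a e.2 <;>
      simp [hq1, hq2, filter_insert, filter_singleton] <;>
      exact card_insert_le _ _
  have hsum : 2 * n ≤ ∑ e ∈ P, (((if R a e.1 then 1 else 0) + if R a e.2 then 1 else 0) +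
      ((if R b e.1 then 1 else 0) + if R b e.2 then 1 else 0)) := by
    rw [sum_add_distrib]
    have := key a ha.1 ha.2
    have := key b hb.1 hb.2
    have := hdeg a ha.1
    have := hdeg b hb.1
    omega
  obtain ⟨e, he, hcase⟩ : ∃ e ∈ P, (R a e.1 ∧ R b e.2) ∨ (R a e.2 ∧ R b e.1) := by
    by_contra hcon
    push Not at hcon
    have : ∑ e ∈ P, (((if R a e.1 then 1 else 0) + if R a e.2 then 1 else 0) +
        ((if R b e.1 then 1 else 0) + if R b e.2 then 1 else 0)) ≤ ∑ _e ∈ P, 2 := by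
      refine sum_le_sum fun e he => ?_
      obtain ⟨c1, c2⟩ := hcon e he
      by_cases q1 : R a e.1 <;> by_cases q2 : R a e.2 <;> by_cases q3 : R b e.1 <;>
        by_cases q4 : R b e.2 <;> simp_all
    rw [sum_const, smul_eq_mul] at this
    omega
  set Q := P.erase e with hQ
  have hQp : IsPairs R Q := ⟨fun f hf => hP.1 f (mem_of_mem_erase hf),
    fun f hf g hg => hP.2 f (mem_of_mem_erase hf) g (mem_of_mem_erase hg)⟩
  have hQcard : Q.card + 1 = P.card := card_erase_add_one he
  have hQsub : ends Q ⊆ ends P := biUnion_subset_biUnion_of_subset_left _ (erase_subset _ _)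
  have hout : ∀ v, (v = e.1 ∨ v = e.2) → v ∉ ends Q := by
    intro v hv hvQ
    obtain ⟨f, hf, hvf⟩ := mem_ends.1 hvQ
    obtain ⟨hfe, hfP⟩ := mem_erase.1 hf
    obtain ⟨h1, h2, h3, h4⟩ := hP.2 e he f hfP (Ne.symm hfe)
    rcases hv with rfl | rfl <;> rcases hvf with q | q <;> contradiction
  have fin : ∀ x y, x ∈ ends P → y ∈ ends P → x ∉ ends Q → y ∉ ends Q → x ≠ y →
      R a x → R b y → False := by
    intro x y hxP hyP hx hy hxy hax hby
    have i1 := hQp.insert_pair hax (fun q => ha.2 (hQsub q)) hx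
    have hb' : b ∉ ends (insert (a, x) Q) := by
      intro q
      obtain ⟨f, hf, hbf⟩ := mem_ends.1 q
      rcases mem_insert.1 hf with rfl | hf
      · rcases hbf with rfl | rfl
        · exact hab rfl
        · exact hb.2 hxP
      · exact hb.2 (hQsub (mem_ends.2 ⟨f, hf, hbf⟩))
    have hy' : y ∉ ends (insert (a, x) Q) := by
      intro q
      obtain ⟨f, hf, hyf⟩ := mem_ends.1 q
      rcases mem_insert.1 hf with rfl | hf
      · rcases hyf with rfl | rfl
        · exact ha.2 hyP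
        · exact hxy rfl
      · exact hy (mem_ends.2 ⟨f, hf, hyf⟩)
    have i2 := i1.1.insert_pair hby hb' hy'
    have := hmax _ ⟨i2.1, ?_⟩
    · omega
    intro v hv
    obtain ⟨f, hf, hvf⟩ := mem_ends.1 hv
    rcases mem_insert.1 hf with rfl | hf
    · rcases hvf with rfl | rfl
      · exact hb.1
      · exact hPS hyP
    rcases mem_insert.1 hf with rfl | hf
    · rcases hvf with rfl | rfl
      · exact ha.1
      · exact hPS hxP
    · exact hPS (hQsub (mem_ends.2 ⟨f, hf, hvf⟩))
  have hne12 : e.1 ≠ e.2 := fun q => hirr e.2 (by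
    have := hP.1 e he
    rwa [q] at this)
  have m1 : e.1 ∈ ends P := mem_ends.2 ⟨e, he, Or.inl rfl⟩
  have m2 : e.2 ∈ ends P := mem_ends.2 ⟨e, he, Or.inr rfl⟩
  rcases hcase with ⟨hx, hy⟩ | ⟨hx, hy⟩
  · exact fin e.1 e.2 m1 m2 (hout _ (Or.inl rfl)) (hout _ (Or.inr rfl)) hne12 hx hy
  · exact fin e.2 e.1 m2 m1 (hout _ (Or.inr rfl)) (hout _ (Or.inl rfl)) hne12.symm hx hy

/-- The main theorem. -/
theorem colorable_of_sparse_compl [Fintype V] (G : SimpleGraph V) (D : ℕ)
    (hD : ∀ v, (Gᶜ.neighborSet v).ncard ≤ D)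
    (hbig : 2 * D ^ 3 < Gᶜ.support.ncard ∨ ∃ M, IsPairs Gᶜ.Adj M ∧ D ^ 2 < M.card)
    (k : ℕ) (hk : ¬ HasMinor G (k + 1)) : G.Colorable k := by
  classical
  let nb : V → Finset V := fun x => univ.filter (Gᶜ.Adj x)
  have hnb : ∀ x, (nb x).card ≤ D := fun x => by
    rw [← Set.ncard_coe_finset]
    convert hD x using 2
    ext y; simp [nb]
  have hirr : ∀ a, ¬ Gᶜ.Adj a a := fun a => Gᶜ.irrefl
  have hne : ((univ : Finset (V × V)).powerset.filter fun M => IsPairs Gᶜ.Adj M).Nonempty :=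
    ⟨∅, by simp [IsPairs]⟩
  obtain ⟨M, hM, hmax⟩ := exists_max_image _ Finset.card hne
  simp only [mem_filter, mem_powerset, subset_univ, true_and] at hM hmax
  set S := ends M with hSdef
  set n := M.card with hn
  have hScard : S.card = 2 * n := card_ends hM hirr
  have hout : ∀ u w, u ∉ S → w ∉ S → ¬ Gᶜ.Adj u w := by
    intro u w hu hw hadj
    have i1 := hM.insert_pair hadj hu hw
    have := hmax _ i1.1
    omega
  have hDn : D ^ 2 < n := by
    rcases hbig with h | ⟨M', hM', h⟩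
    · have hsub : Gᶜ.support ⊆ ↑(S.biUnion nb) := by
        intro v hv
        obtain ⟨w, hvw⟩ := hv
        simp only [Finset.coe_biUnion, Set.mem_iUnion, mem_coe, nb, mem_filter, mem_univ,
          true_and, exists_prop]
        by_cases hvS : v ∈ S
        · obtain ⟨e, he, q | q⟩ := mem_ends.1 hvS
          · exact ⟨e.2, mem_ends.2 ⟨e, he, Or.inr rfl⟩, q ▸ (hM.1 e he).symm⟩
          · exact ⟨e.1, mem_ends.2 ⟨e, he, Or.inl rfl⟩, q ▸ hM.1 e he⟩
        · by_cases hwS : w ∈ S
          · exact ⟨w, hwS, hvw.symm⟩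
          · exact absurd hvw (hout v w hvS hwS)
      have h1 := Set.ncard_le_ncard hsub (Finset.finite_toSet _)
      rw [Set.ncard_coe_finset] at h1
      have h2 : (S.biUnion nb).card ≤ S.card * D := card_biUnion_le_card_mul _ _ _ fun x _ => hnb x
      rw [hScard] at h2
      by_contra hcon
      have : n * D ≤ D ^ 2 * D := Nat.mul_le_mul_right D (not_lt.1 hcon)
      nlinarith
    · exact h.trans_le (hmax M' hM')
  let R : V → V → Prop := fun a b => G.Adj a b ∧ ∀ z, ¬ (Gᶜ.Adj a z ∧ Gᶜ.Adj b z)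
  have hdeg : ∀ a ∈ S, n ≤ (S.filter (R a)).card := by
    intro a haS
    have hsub : S.filter (fun b => ¬ R a b) ⊆
        insert a (nb a ∪ (nb a).biUnion fun z => (nb z).erase a) := by
      intro b hb
      rw [mem_filter] at hb
      simp only [mem_insert, mem_union, mem_biUnion, mem_erase, nb, mem_filter, mem_univ, true_and]
      by_cases hba : b = a
      · exact Or.inl hba
      refine Or.inr ?_
      by_cases hadj : G.Adj a b
      · have h' : ∃ z, Gᶜ.Adj a z ∧ Gᶜ.Adj b z := by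
          by_contra hcon
          exact hb.2 ⟨hadj, fun z hz => hcon ⟨z, hz⟩⟩
        obtain ⟨z, hz1, hz2⟩ := h'
        exact Or.inr ⟨z, hz1, hba, hz2.symm⟩
      · exact Or.inl ((SimpleGraph.compl_adj G a b).2 ⟨Ne.symm hba, hadj⟩)
    have h1 := card_le_card hsub
    have h2 : ((nb a).biUnion fun z => (nb z).erase a).card ≤ (nb a).card * (D - 1) := by
      refine card_biUnion_le_card_mul _ _ _ fun z hz => ?_
      have hza : a ∈ nb z := by
        simp only [nb, mem_filter, mem_univ, true_and] at hz ⊢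
        exact hz.symm
      rw [card_erase_of_mem hza]
      have := hnb z
      omega
    have h3 : (nb a).card * (D - 1) ≤ D * (D - 1) := Nat.mul_le_mul_right _ (hnb a)
    have h4 : D + D * (D - 1) = D ^ 2 := by cases D <;> simp; ring
    have h5 := card_filter_add_card_filter_not (s := S) (R a)
    have h6 := card_insert_le a (nb a ∪ (nb a).biUnion fun z => (nb z).erase a)
    have h7 := card_union_le (nb a) ((nb a).biUnion fun z => (nb z).erase a)
    have := hnb a
    omega
  obtain ⟨P, hP, hPS, hPn⟩ := exists_pairs R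
    (fun a b h => ⟨h.1.symm, fun z hz => h.2 z hz.symm⟩) (fun a h => G.irrefl h.1) S n hScard hdeg
  obtain ⟨U, hUmem⟩ : ∃ U : Finset V, ∀ v, v ∈ U ↔ v ∉ S := ⟨univ \ S, by simp⟩
  by_cases ht : Fintype.card (↥U ⊕ ↥M) ≤ k
  · have hex : ∀ v, v ∉ U → ∃ e : ↥M, v = e.1.1 ∨ v = e.1.2 := by
      intro v hv
      obtain ⟨e, he, h⟩ := mem_ends.1 (not_not.1 fun q => hv ((hUmem v).2 q))
      exact ⟨⟨e, he⟩, h⟩
    choose g hg using hex
    let f : V → ↥U ⊕ ↥M := fun v =>
      if h : v ∈ U then Sum.inl ⟨v, h⟩ else Sum.inr (g v h)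
    refine SimpleGraph.Colorable.mono ht (SimpleGraph.Coloring.colorable
      (SimpleGraph.Coloring.mk f fun {v w} hvw heq => ?_))
    simp only [f] at heq
    by_cases hv : v ∈ U <;> by_cases hw : w ∈ U
    · rw [dif_pos hv, dif_pos hw] at heq
      exact hvw.ne (Subtype.ext_iff.1 (Sum.inl.inj heq))
    · rw [dif_pos hv, dif_neg hw] at heq
      exact Sum.inl_ne_inr heq
    · rw [dif_neg hv, dif_pos hw] at heq
      exact Sum.inr_ne_inl heq
    · rw [dif_neg hv, dif_neg hw] at heq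
      have he := Sum.inr.inj heq
      have h1 := hg v hv
      have h2 := hg w hw
      rw [he] at h1
      have hnot := ((SimpleGraph.compl_adj G _ _).1 (hM.1 _ (g w hw).2)).2
      rcases h1 with q1 | q1 <;> rcases h2 with q2 | q2
      · exact hvw.ne (q1.trans q2.symm)
      · exact hnot (q1 ▸ q2 ▸ hvw)
      · exact hnot (q1 ▸ q2 ▸ hvw).symm
      · exact hvw.ne (q1.trans q2.symm)
  · exfalso
    apply hk
    have hcard : k + 1 ≤ Fintype.card (↥U ⊕ ↥P) := by
      simp only [Fintype.card_sum, Fintype.card_coe, hPn] at ht ⊢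
      omega
    let B : ↥U ⊕ ↥P → Set V :=
      Sum.elim (fun u => {u.1}) (fun e => {e.1.1, e.1.2})
    have hU : ∀ u : ↥U, u.1 ∉ S := fun u => (hUmem u.1).1 u.2
    have hPm : ∀ e : ↥P, e.1.1 ∈ S ∧ e.1.2 ∈ S := fun e =>
      ⟨hPS ▸ mem_ends.2 ⟨e.1, e.2, Or.inl rfl⟩, hPS ▸ mem_ends.2 ⟨e.1, e.2, Or.inr rfl⟩⟩
    have hconn : ∀ i, (G.induce (B i)).Connected := by
      rintro (u | e)
      · refine SimpleGraph.connected_iff _ |>.2 ⟨fun x y => ?_, ⟨⟨u.1, rfl⟩⟩⟩
        have hxy : x = y := Subtype.ext ((Set.mem_singleton_iff.1 x.2).trans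
          (Set.mem_singleton_iff.1 y.2).symm)
        rw [hxy]
      · exact SimpleGraph.induce_pair_connected_of_adj (hP.1 e.1 e.2).1
    have cross : ∀ z, ∀ e : ↥P, z ≠ e.1.1 → z ≠ e.1.2 →
        ∃ y ∈ ({e.1.1, e.1.2} : Set V), G.Adj z y := by
      intro z e h1 h2
      by_contra hcon
      push Not at hcon
      exact (hP.1 e.1 e.2).2 z
        ⟨(SimpleGraph.compl_adj G _ _).2 ⟨h1.symm, fun q => hcon _ (by simp) q.symm⟩,
         (SimpleGraph.compl_adj G _ _).2 ⟨h2.symm, fun q => hcon _ (by simp) q.symm⟩⟩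
    have ue : ∀ u : ↥U, ∀ e : ↥P, u.1 ≠ e.1.1 ∧ u.1 ≠ e.1.2 :=
      fun u e => ⟨fun q => hU u (q ▸ (hPm e).1), fun q => hU u (q ▸ (hPm e).2)⟩
    have hpair : ∀ i j, i ≠ j → Disjoint (B i) (B j) ∧ ∃ x ∈ B i, ∃ y ∈ B j, G.Adj x y := by
      rintro (u | e) (w | f) hij
      · have huw : u.1 ≠ w.1 := fun q => hij (congrArg Sum.inl (Subtype.ext q))
        refine ⟨by simpa [B] using huw, u.1, rfl, w.1, rfl, ?_⟩
        by_contra hcon
        exact hout u.1 w.1 (hU u) (hU w) ((SimpleGraph.compl_adj G _ _).2 ⟨huw, hcon⟩)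
      · refine ⟨by simpa [B] using ue u f, u.1, rfl, ?_⟩
        exact cross u.1 f (ue u f).1 (ue u f).2
      · obtain ⟨y, hy, hadj⟩ := cross w.1 e (ue w e).1 (ue w e).2
        refine ⟨by simpa [B] using ⟨(ue w e).1, (ue w e).2⟩, y, hy, w.1, rfl, hadj.symm⟩
      · have hef : e.1 ≠ f.1 := fun q => hij (congrArg Sum.inr (Subtype.ext q))
        obtain ⟨q1, q2, q3, q4⟩ := hP.2 e.1 e.2 f.1 f.2 hef
        refine ⟨?_, e.1.1, by simp [B], cross e.1.1 f q1 q2⟩
        simp only [B, Sum.elim_inr, Set.disjoint_left, Set.mem_insert_iff, Set.mem_singleton_iff]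
        rintro v (rfl | rfl) (q | q) <;> contradiction
    let em : Fin (k + 1) → ↥U ⊕ ↥P :=
      fun i => (Fintype.equivFin _).symm (Fin.castLE hcard i)
    refine ⟨fun i => B (em i), fun i => hconn _, fun i j hij => hpair _ _ fun q => hij ?_⟩
    exact Fin.castLE_injective hcard ((Fintype.equivFin _).symm.injective q)

end Vale.Agent.P060
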